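import Vale.Agent.Lib.P012.Main

namespace Vale.Agent.Results.P012.A_loglog_sq

open Vale.Agent.Lib.P012

/-- Every fraction `a / b` with `1 ≤ a < b` and `b ≥ 16` is a sum of at most
`10 ^ 6 * (log log b) ^ 2` distinct unit fractions with denominators at least `2`. -/
theorem result : ∀ b : ℕ, 16 ≤ b → ∀ a : ℕ, 1 ≤ a → a < b →
    ∃ S : Finset ℕ, (∀ n ∈ S, 2 ≤ n) ∧
      (S.card : ℝ) ≤ 10 ^ 6 * (Real.log (Real.log (b : ℝ))) ^ 2 ∧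
      ∑ n ∈ S, (1 : ℚ) / (n : ℚ) = (a : ℚ) / (b : ℚ) := by
  intro b hb a ha hab
  obtain ⟨h1, h2, h3⟩ := K_bound b hb
  set K := 12 + Nat.clog 2 (Nat.clog 2 b) with hK
  obtain ⟨S, hS1, hS2, hS3⟩ := egyptian_K K (by omega) a b ha hab h1
  refine ⟨S, hS1, ?_, hS3⟩
  set x := Real.log (Real.log (b : ℝ)) with hx
  have hKR : (K : ℝ) ^ 2 ≤ (16 * x) ^ 2 := pow_le_pow_left₀ (by positivity) h2 2
  have hcard : (S.card : ℝ) ≤ 2 * (1920 * (K : ℝ) ^ 2 + 8) := by exact_mod_cast hS2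
  have hx2 : 1 ≤ x ^ 2 := one_le_pow₀ h3
  nlinarith

end Vale.Agent.Results.P012.A_loglog_sq
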