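import Vale.Agent.Lib.P012.Final2

namespace Vale.Agent.Results.P012.B_loglog_logloglog

open Vale.Agent.Lib.P012

/-- Every fraction `a / b` with `1 ≤ a < b` and `b ≥ 2 ^ 32` is a sum of at most
`10 ^ 6 * (log log b) * (log log log b)` distinct unit fractions with denominators at least `2`. -/
theorem result : ∀ b : ℕ, 2 ^ 32 ≤ b → ∀ a : ℕ, 1 ≤ a → a < b →
    ∃ S : Finset ℕ, (∀ n ∈ S, 2 ≤ n) ∧
      (S.card : ℝ) ≤ 10 ^ 6 * Real.log (Real.log (b : ℝ)) * Real.log (Real.log (Real.log (b : ℝ))) ∧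
      ∑ n ∈ S, (1 : ℚ) / (n : ℚ) = (a : ℚ) / (b : ℚ) :=
  fun b hb a ha hab => egyptian_final b hb a ha hab

end Vale.Agent.Results.P012.B_loglog_logloglog
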